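import Vale.Agent.P273.H580.TheStms
import Vale.Agent.P273.H214.OneOf

/-!
# P273, row BULK-POTH: the family `theFlatFam` and the gauge of one mark `theOne`
-/

namespace Vale.Agent.P273.H580

open Vale.Agent.P273.H214 (FlatFam)

noncomputable section

/-- **the flat gauge of all classes over `XX`**, without hypotheses -/
def theFlatFam : FlatFam where
  η := etaX theStms
  A := AX
  flat _ h := fam_flat theStms h
  addA ξ ζ _ _ b _ := AX_add ξ ζ b
  smulA c ξ _ b _ := AX_smul c ξ b
  constA _ hb := fam_constA theStms hb
  lawA _ i h _ hb hi := fam_lawA theStms h i hb hi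
  add _ _ h h' _ hb _ _ hy hy0 := fam_add theStms h h' hb hy hy0
  smul c _ h _ hb _ _ hy hy0 := fam_smul theStms c h hb hy hy0
  const _ hb x y _ _ := fam_const theStms hb x y
  law _ i h _ hb hi _ _ hy hy0 := fam_law theStms h i hb hi hy hy0

/-- **the gauge of one mark** -/
def theOne : Vale.Agent.P273.H973.One := Vale.Agent.P273.H214.oneOf theFlatFam

end

end Vale.Agent.P273.H580
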