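import Vale.Agent.P273.H580.FlatX
import Vale.Agent.P273.H356.FlatSw
import Vale.Agent.P273.H356.Move6

/-!
# P273, row BULK-POTH: the family of flat gauges over `XX`, all fields of the structure `FlatFam`

`H : Stms` are the statements of helper857's block.  The classes are those of helper95's wall.
-/

namespace Vale.Agent.P273.H580

open scoped ContDiff Topology
open Set Filter
open Vale.Agent.P273.H214 (Bs ff IsBr FlatOn)
open Vale.Agent.P273.H681 (swL)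
open Vale.Agent.P273.H95 (IsCl act)

noncomputable section

theorem isCl_alt {ξ : Fin 6 → ℝ} (h : IsCl ξ) : H908.alt ξ = 0 :=
  (H356.isCl_iff_alt ξ).1 h

theorem isCl_const : IsCl (fun _ => 1) := by
  rw [H356.isCl_iff_alt]
  simp [H908.alt]

theorem isCl_act {ξ : Fin 6 → ℝ} (i : Fin 5) (h : IsCl ξ) : IsCl (act i ξ) := by
  rw [H356.isCl_iff_alt, H356.act_eq]
  exact H356.alt_sB i (isCl_alt h)

theorem XX_eq : H681.XX = XO := rfl

theorem ff_ne {b : Bs} {x y : ℂ} (hy : y ^ 2 = ff (b, x)) (hy0 : y ≠ 0) : ff (b, x) ≠ 0 := by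
  rw [← hy]
  exact pow_ne_zero 2 hy0

theorem relL_eq (i : Fin 5) :
    relL (sw i) = (swL i).prodMap (ContinuousLinearMap.id ℝ ℂ) := rfl

section
variable (H : Stms) {ξ ζ : Fin 6 → ℝ} {b : Bs}

theorem fam_flat (hξ : IsCl ξ) : FlatOn H681.XX (etaX H ξ) (AX ξ) := etaX_flatOn H (isCl_alt hξ)

theorem swL_comp (i : Fin 5) (b : Bs) : swL i b = b ∘ sw i := rfl

include H in
theorem fam_lawA (hξ : IsCl ξ) (i : Fin 5) (hb : b ∈ H681.XX)
    (hi : (b i.succ).re < (b i.castSucc).re) : AX ξ b = AX (act i ξ) (swL i b) := by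
  have hb' : b ∘ sw i ∈ XO := H356.swL_mem i hb hi
  rw [AX, AX, fl_law H (isCl_alt hξ) hb hi hb', swL_comp]

theorem fam_law (hξ : IsCl ξ) (i : Fin 5) (hb : b ∈ H681.XX)
    (hi : (b i.succ).re < (b i.castSucc).re) {x y : ℂ} (hy : y ^ 2 = ff (b, x)) (hy0 : y ≠ 0) :
    etaX H ξ b x y =
      (etaX H (act i ξ) (swL i b) x y).comp
        ((swL i).prodMap (ContinuousLinearMap.id ℝ ℂ)) := by
  have hb' : b ∘ sw i ∈ XO := H356.swL_mem i hb hi
  have ho : ∀ᶠ b1 : Bs in 𝓝 b, b1 ∈ XO ∧ (b1 i.succ).re < (b1 i.castSucc).re := by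
    have h1 : ∀ᶠ b1 : Bs in 𝓝 b, b1 ∈ XO := isOpen_XO.mem_nhds hb
    have h2 : IsOpen {b1 : Bs | (b1 i.succ).re < (b1 i.castSucc).re} :=
      isOpen_lt (by fun_prop) (by fun_prop)
    exact h1.and (h2.mem_nhds hi)
  have hfl : ∀ᶠ b1 : Bs in 𝓝 b, fl ξ b1 = fl (act i ξ) (b1 ∘ sw i) := by
    filter_upwards [ho] with b1 h1
    exact fl_law H (isCl_alt hξ) h1.1 h1.2 (H356.swL_mem i h1.1 h1.2)
  have h3 := (flatX H (isCl_alt hξ)).eta_rel (flatX H (isCl_alt (isCl_act i hξ)))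
    (potX_rel H.hol H.flipR H.flipL) (sw i) hb'
    (hfl.mono fun b1 h => by rw [AX, AX, h]) (hfl.mono fun b1 h => by rw [cX, cX, h])
    (ff_ne hy hy0) y
  rw [relL_eq] at h3
  exact h3

theorem fam_add (hξ : IsCl ξ) (hζ : IsCl ζ) (hb : b ∈ H681.XX) {x y : ℂ}
    (hy : y ^ 2 = ff (b, x)) (hy0 : y ≠ 0) :
    etaX H (ξ + ζ) b x y = etaX H ξ b x y + etaX H ζ b x y :=
  etaX_add H (isCl_alt hξ) (isCl_alt hζ) hb (ff_ne hy hy0) y

theorem fam_smul (r : ℝ) (hξ : IsCl ξ) (hb : b ∈ H681.XX) {x y : ℂ}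
    (hy : y ^ 2 = ff (b, x)) (hy0 : y ≠ 0) : etaX H (r • ξ) b x y = r • etaX H ξ b x y :=
  etaX_smul H r (isCl_alt hξ) hb (ff_ne hy hy0) y

theorem fam_const (hb : b ∈ H681.XX) (x y : ℂ) : etaX H (fun _ => 1) b x y = 0 :=
  etaX_const H hb y

include H in
theorem fam_constA (hb : b ∈ H681.XX) : AX (fun _ => 1) b = 0 := AX_const H hb

end

end

end Vale.Agent.P273.H580
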