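import Vale.Agent.P273.H857.All1
import Vale.Agent.P273.H863.GPRoot
import Vale.Agent.P273.H580.Fam

/-!
# P273, row BULK-POTH: all statements of helper857's block hold
-/

namespace Vale.Agent.P273.H580

open Vale.Agent.P273.H857

/-- all the statements -/
theorem theStms : Stms where
  hol := stmHOL
  flipR := stmFLIPR
  flipL := stmFLIPL
  root := H863.stmROOT_of stmEX stmINV stmHOL
  holR := stmHOLR
  alt := stmALT

end Vale.Agent.P273.H580
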