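import Vale.Agent.P273.H580.PotX
import Vale.Agent.P273.H214.Gauge
import Vale.Agent.P273.H908.GP
import Vale.Agent.P273.H95.Wall

/-!
# P273, row BULK-POTH: the flat gauge over `XX`

From helper857's statements (holomorphy, flips, structure at the roots, alternating sum) and
helper908's non-degeneracy: coefficients `AX ξ`, constants `cX ξ`, the form `etaX ξ`.
-/

namespace Vale.Agent.P273.H580

open scoped ContDiff Topology
open Set Filter
open Vale.Agent.P273.H214 (Bs ff IsBr FlatOn)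
open Vale.Agent.P273.H857

noncomputable section

/-- the statements of helper857 -/
structure Stms : Prop where
  hol : StmHOL
  flipR : StmFLIPR
  flipL : StmFLIPL
  root : StmROOT
  holR : StmHOLR
  alt : StmALT

/-! ### non-degeneracy -/

theorem ok_of_Dom {A : Finset (Fin 6)} {b : Bs} {x : ℂ} (h : H908.Dom A b x) : OK A b x :=
  ⟨fun l hl m hm h1 h2 => h.2 l hl m hm h2 h1, fun l _ h1 => h.1 l h1⟩

theorem ok_of_RDom {A : Finset (Fin 6)} {b : Bs} {j : Fin 6} (h : H908.RDom A b j) :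
    OK A b (b j) :=
  ⟨fun l hl m hm h1 h2 => h.2.2 l hl m hm h2 h1,
    fun l hlj h1 => h.2.1 l (fun h' => hlj (by rw [h'])) h1⟩

theorem norm_sq_eq (A : Finset (Fin 6)) (b : Bs) (x : ℂ) : ‖H857.sq A b x‖ = ‖H908.sq b x‖ := by
  have h1 : ‖H857.sq A b x‖ ^ 2 = ‖H908.sq b x‖ ^ 2 := by
    rw [← norm_pow, ← norm_pow, H908.sq_sq, pow_two, sq_mul_self]
  exact (pow_left_inj₀ (norm_nonneg _) (norm_nonneg _) two_ne_zero).1 h1

theorem tendsto_rt_zero : Tendsto H857.rt (𝓝 0) (𝓝 0) := by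
  rw [tendsto_zero_iff_norm_tendsto_zero]
  have h1 : (fun z => ‖H857.rt z‖) = fun z => Real.sqrt ‖z‖ := funext H857.norm_rt
  rw [h1]
  have h2 : Continuous fun z : ℂ => Real.sqrt ‖z‖ := by fun_prop
  have := h2.tendsto 0
  simpa using this

theorem gp_deriv (H : Stms) {b : Bs} (hb : b ∈ XO) (A : Finset (Fin 6)) (x : ℂ)
    (h : H908.Dom A b x) : ∃ s : ℂ, ‖s‖ = ‖H908.sq b x‖ ∧
      HasDerivAt (P 0 A b) (1 / s) x ∧ HasDerivAt (P 1 A b) (x / s) x := by
  refine ⟨H857.sq A b x, norm_sq_eq A b x, ?_, ?_⟩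
  · have := (H.hol 0 A b x (by norm_num) (xo_inj hb) (fun l => (h.ne l).symm) (ok_of_Dom h)).2
    rwa [pow_zero] at this
  · have := (H.hol 1 A b x (by norm_num) (xo_inj hb) (fun l => (h.ne l).symm) (ok_of_Dom h)).2
    rwa [pow_one] at this

theorem tendsto_sub_zero (b : Bs) (j : Fin 6) :
    Tendsto (fun x : ℂ => x - b j) (𝓝 (b j)) (𝓝 0) := by
  have h3 : Continuous fun x : ℂ => x - b j := by fun_prop
  have := h3.tendsto (b j)
  simpa using this

theorem tendsto_pair (b : Bs) (j : Fin 6) :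
    Tendsto (fun x : ℂ => ((b, x - b j) : Bs × ℂ)) (𝓝 (b j)) (𝓝 (b, 0)) :=
  tendsto_const_nhds.prodMk_nhds (tendsto_sub_zero b j)

theorem mem_Sl_of_side {z x : ℂ} (h : x ∈ H908.side z) : x - z ∈ Sl := by
  rcases h with h7 | h7
  · refine Or.inr ?_
    rw [Complex.sub_re]
    exact sub_ne_zero.2 h7
  · refine Or.inl ?_
    rw [Complex.sub_im]
    linarith

theorem tendsto_slice {b : C6} (j : Fin 6) (F : C6 → ℂ → ℂ)
    (h1 : AnalyticAt ℂ (fun p : C6 × ℂ => F p.1 p.2) (b, 0)) :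
    Tendsto (fun x : ℂ => F b (x - b j)) (𝓝 (b j)) (𝓝 (F b 0)) := by
  have h2 : Tendsto (fun p : C6 × ℂ => F p.1 p.2) (𝓝 (b, 0)) (𝓝 (F b 0)) := h1.continuousAt
  exact h2.comp (tendsto_pair b j)

theorem gp_root (H : Stms) {b : Bs} (hb : b ∈ XO) (A : Finset (Fin 6)) (j : Fin 6)
    (h : H908.RDom A b j) (k : ℕ) (hk : k ≤ 1) :
    Tendsto (fun x => P k A b x) (𝓝[H908.side (b j)] (b j)) (𝓝 (P k A b (b j))) := by
  obtain ⟨h1, h2⟩ := H.root k A b j hk (xo_inj hb) (ok_of_RDom h) h.1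
  have hE : Tendsto (fun x : ℂ => Er k j A b (x - b j)) (𝓝 (b j)) (𝓝 (Er k j A b 0)) :=
    tendsto_slice j (Er k j A) h1
  have h5 : Tendsto (fun x : ℂ => P k A b (b j) + H857.rt (x - b j) * Er k j A b (x - b j))
      (𝓝 (b j)) (𝓝 (P k A b (b j) + 0 * Er k j A b 0)) :=
    tendsto_const_nhds.add ((tendsto_rt_zero.comp (tendsto_sub_zero b j)).mul hE)
  rw [zero_mul, add_zero] at h5
  have h6 : ∀ᶠ x in 𝓝[H908.side (b j)] (b j),
      P k A b (b j) + H857.rt (x - b j) * Er k j A b (x - b j) = P k A b x := by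
    have h7 := ((tendsto_pair b j).eventually h2).filter_mono
      (nhdsWithin_le_nhds (s := H908.side (b j)))
    filter_upwards [self_mem_nhdsWithin, h7] with x hx h8
    have h10 := h8.1 (mem_Sl_of_side hx)
    have e : b j + (x - b j) = x := by ring
    rw [e] at h10
    exact h10.symm
  exact (h5.mono_left nhdsWithin_le_nhds).congr' h6

theorem gpX (H : Stms) {b : Bs} (hb : b ∈ XO) :
    H908.GP b (fun A k x => P k A b x) (fun A k j => P k A b (b j)) where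
  deriv A x h := gp_deriv H hb A x h
  flipR A m x hm h1 h2 h3 k hk :=
    H.flipR k A b x m hk (xo_inj hb) hm (ok_of_Dom h1) (ok_of_Dom h2) h3.le
  flipL A m x hm h1 h2 h3 k hk :=
    H.flipL k A b x m hk (xo_inj hb) hm (ok_of_Dom h1) (ok_of_Dom h2) h3
  root A j h k hk := gp_root H hb A j h k hk

/-! ### the frame -/

/-- the half periods in the frame of `XX` -/
def pX (b : Bs) (j : Fin 6) : ℂ × ℂ := (piX 0 j b, piX 1 j b)

theorem alt_pX (H : Stms) {b : Bs} (hb : b ∈ XO) : H908.alt (pX b) = 0 :=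
  Prod.ext (H.alt 0 b (by norm_num) hb) (H.alt 1 b (by norm_num) hb)

theorem inj_pX (H : Stms) {b : Bs} (hb : b ∈ XO) (a c : ℂ) (r : ℝ)
    (h : ∀ j, (a * (pX b j).1 + c * (pX b j).2).re + r = 0) : a = 0 ∧ c = 0 := by
  refine (gpX H hb).inj hb (r := r) fun j => ?_
  have h1 : (Finset.Iio j : Finset (Fin 6)) = lo j := by
    ext l
    rw [Finset.mem_Iio, lo_mem]
  rw [h1]
  exact h j

theorem smooth_pX (H : Stms) (j : Fin 6) : ContDiffOn ℝ ∞ (fun b => pX b j) XO := by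
  intro b hb
  have h0 := H.holR 0 (lo j) b j (by norm_num) (xo_inj hb) (ok_lo hb j)
  have h1 := H.holR 1 (lo j) b j (by norm_num) (xo_inj hb) (ok_lo hb j)
  exact ((h0.contDiffAt.restrict_scalars ℝ).prodMk
    (h1.contDiffAt.restrict_scalars ℝ)).contDiffWithinAt

/-- coefficients and constant of the class `ξ` -/
def fl (ξ : Fin 6 → ℝ) (b : Bs) : ℂ × ℂ × ℝ := H908.flat (pX b) ξ

theorem smooth_fl (H : Stms) (ξ : Fin 6 → ℝ) {b : Bs} (hb : b ∈ XO) :
    ContDiffAt ℝ ∞ (fl ξ) b := by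
  have h1 := H908.contDiffOn_flat (O := XO) (p := pX) (smooth_pX H) (fun b hb => alt_pX H hb)
    (fun b hb => inj_pX H hb)
  exact ((h1.contDiffAt (isOpen_XO.mem_nhds hb))).clm_apply contDiffAt_const

/-- the linear form with given coefficients -/
def mkA : (ℂ × ℂ × ℝ) →L[ℝ] (ℂ × ℂ →L[ℝ] ℝ) :=
  LinearMap.toContinuousLinearMap
    { toFun := fun v => Complex.reCLM.comp
        ((ContinuousLinearMap.mul ℝ ℂ v.1).comp (ContinuousLinearMap.fst ℝ ℂ ℂ) +
          (ContinuousLinearMap.mul ℝ ℂ v.2.1).comp (ContinuousLinearMap.snd ℝ ℂ ℂ))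
      map_add' := fun v w => by
        refine ContinuousLinearMap.ext fun z => ?_
        simp
        ring
      map_smul' := fun r v => by
        refine ContinuousLinearMap.ext fun z => ?_
        simp
        ring }

theorem mkA_apply (v : ℂ × ℂ × ℝ) (z : ℂ × ℂ) : mkA v z = (v.1 * z.1 + v.2.1 * z.2).re := rfl

/-- the vertical part of the class `ξ` -/
def AX (ξ : Fin 6 → ℝ) (b : Bs) : ℂ × ℂ →L[ℝ] ℝ := mkA (fl ξ b)

/-- the constant of the class `ξ` -/
def cX (ξ : Fin 6 → ℝ) (b : Bs) : ℝ := (fl ξ b).2.2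

theorem val_fl (H : Stms) {ξ : Fin 6 → ℝ} (hξ : H908.alt ξ = 0) {b : Bs} (hb : b ∈ XO)
    (j : Fin 6) : AX ξ b (pX b j) + cX ξ b = ξ j :=
  H908.flat_spec (alt_pX H hb) (inj_pX H hb) hξ j

theorem fl_unique (H : Stms) {ξ : Fin 6 → ℝ} {b : Bs} (hb : b ∈ XO) {v : ℂ × ℂ × ℝ}
    (hv : ∀ j, mkA v (pX b j) + v.2.2 = ξ j) : fl ξ b = v :=
  H908.flat_unique (alt_pX H hb) (inj_pX H hb) hv

theorem fl_add (ξ ζ : Fin 6 → ℝ) (b : Bs) : fl (ξ + ζ) b = fl ξ b + fl ζ b :=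
  map_add _ _ _

theorem fl_smul (r : ℝ) (ξ : Fin 6 → ℝ) (b : Bs) : fl (r • ξ) b = r • fl ξ b :=
  map_smul _ _ _

theorem fl_const (H : Stms) {b : Bs} (hb : b ∈ XO) : fl (fun _ => 1) b = (0, 0, 1) :=
  fl_unique H hb fun j => by simp [mkA_apply]

theorem AX_add (ξ ζ : Fin 6 → ℝ) (b : Bs) : AX (ξ + ζ) b = AX ξ b + AX ζ b := by
  rw [AX, fl_add, map_add]
  rfl

theorem AX_smul (r : ℝ) (ξ : Fin 6 → ℝ) (b : Bs) : AX (r • ξ) b = r • AX ξ b := by
  rw [AX, fl_smul, map_smul]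
  rfl

theorem AX_const (H : Stms) {b : Bs} (hb : b ∈ XO) : AX (fun _ => 1) b = 0 := by
  refine ContinuousLinearMap.ext fun z => ?_
  rw [AX, fl_const H hb, mkA_apply]
  simp

theorem cX_add (ξ ζ : Fin 6 → ℝ) (b : Bs) : cX (ξ + ζ) b = cX ξ b + cX ζ b := by
  rw [cX, fl_add]
  rfl

theorem cX_smul (r : ℝ) (ξ : Fin 6 → ℝ) (b : Bs) : cX (r • ξ) b = r * cX ξ b := by
  rw [cX, fl_smul]
  rfl

theorem cX_const (H : Stms) {b : Bs} (hb : b ∈ XO) : cX (fun _ => 1) b = 1 := by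
  rw [cX, fl_const H hb]

/-! ### the form -/

/-- the data of helper857 -/
def PQ (H : Stms) : Pot := potX H.hol H.flipR H.flipL

theorem flatX (H : Stms) {ξ : Fin 6 → ℝ} (hξ : H908.alt ξ = 0) :
    Flat (PQ H) (AX ξ) (cX ξ) ξ where
  smA b hb := mkA.contDiff.contDiffAt.comp b (smooth_fl H ξ hb)
  smc b hb := ((smooth_fl H ξ hb).snd).snd
  val b hb j := val_fl H hξ hb j

/-- **the flat form of the class `ξ`** -/
def etaX (H : Stms) (ξ : Fin 6 → ℝ) (b : Bs) (x y : ℂ) : Bs × ℂ →L[ℝ] ℝ :=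
  eta (PQ H) (AX ξ) (cX ξ) b x y

theorem Flat.flatOn {V : Type*} [NormedAddCommGroup V] [NormedSpace ℝ V] {Q : Pot}
    {A : Bs → (ℂ × ℂ →L[ℝ] V)} {c : Bs → V} {ξ : Fin 6 → V} (h : Flat Q A c ξ) :
    FlatOn XO (eta Q A c) A where
  isOpen := isOpen_XO
  sub := XO_sub_Cf
  odd := eta_neg
  smooth p hp Y hY := h.smooth hp hY
  closed p hp Y hY := h.closed hp hY
  vert b hb x y hy hy0 ζ := h.vert hb hy hy0 ζ
  smoothA := h.smA

theorem etaX_flatOn (H : Stms) {ξ : Fin 6 → ℝ} (hξ : H908.alt ξ = 0) :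
    FlatOn XO (etaX H ξ) (AX ξ) := (flatX H hξ).flatOn

section
variable (H : Stms) {ξ ζ : Fin 6 → ℝ} {b : Bs} {x : ℂ}

theorem etaX_add (hξ : H908.alt ξ = 0) (hζ : H908.alt ζ = 0) (hb : b ∈ XO)
    (hx : ff (b, x) ≠ 0) (y : ℂ) : etaX H (ξ + ζ) b x y = etaX H ξ b x y + etaX H ζ b x y := by
  have h1 := (flatX H hξ).diffG (mem_Dm_Sx hx) hb
  have h2 := (flatX H hζ).diffG (mem_Dm_Sx hx) hb
  have h3 : Gf (PQ H) (AX (ξ + ζ)) (cX (ξ + ζ)) (Sx (b, x)) = fun q =>
      Gf (PQ H) (AX ξ) (cX ξ) (Sx (b, x)) q + Gf (PQ H) (AX ζ) (cX ζ) (Sx (b, x)) q := by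
    funext q
    unfold Gf
    rw [AX_add, cX_add, add_apply]
    ring
  unfold etaX eta
  rw [h3, fderiv_fun_add h1 h2, smul_add]

theorem etaX_smul (r : ℝ) (hξ : H908.alt ξ = 0) (hb : b ∈ XO)
    (hx : ff (b, x) ≠ 0) (y : ℂ) : etaX H (r • ξ) b x y = r • etaX H ξ b x y := by
  have h1 := (flatX H hξ).diffG (mem_Dm_Sx hx) hb
  have h3 : Gf (PQ H) (AX (r • ξ)) (cX (r • ξ)) (Sx (b, x)) = fun q =>
      r • Gf (PQ H) (AX ξ) (cX ξ) (Sx (b, x)) q := by
    funext q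
    unfold Gf
    rw [AX_smul, cX_smul, smul_apply, smul_eq_mul, smul_eq_mul]
    ring
  unfold etaX eta
  rw [h3, fderiv_fun_const_smul h1, smul_comm]

theorem etaX_const (hb : b ∈ XO) (y : ℂ) : etaX H (fun _ => 1) b x y = 0 := by
  have h3 : Gf (PQ H) (AX fun _ => 1) (cX fun _ => 1) (Sx (b, x)) =ᶠ[𝓝 (b, x)]
      fun _ => (1 : ℝ) := by
    have h0 : Tendsto (fun q : Bs × ℂ => q.1) (𝓝 (b, x)) (𝓝 b) := continuous_fst.tendsto _
    filter_upwards [h0.eventually (isOpen_XO.mem_nhds hb)] with q hq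
    unfold Gf
    rw [AX_const H hq, cX_const H hq]
    simp
  unfold etaX eta
  rw [h3.fderiv_eq, fderiv_const_apply, smul_zero]

end

/-! ### the half twists -/

theorem fl_law (H : Stms) {ξ : Fin 6 → ℝ} (hξ : H908.alt ξ = 0) {b : Bs} (hb : b ∈ XO)
    {i : Fin 5} (hi : (b i.succ).re < (b i.castSucc).re) (hb' : b ∘ sw i ∈ XO) :
    fl ξ b = fl (H95.act i ξ) (b ∘ sw i) := by
  have hne : i.succ ≠ i.castSucc := (castSucc_lt i).ne'
  have hcl : H908.alt (H95.act i ξ) = 0 := by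
    simp only [H908.alt] at hξ ⊢
    fin_cases i <;> simp [H95.act] <;> linarith
  have hv : ∀ j, mkA (fl (H95.act i ξ) (b ∘ sw i)) (pX (b ∘ sw i) j) +
      (fl (H95.act i ξ) (b ∘ sw i)).2.2 = H95.act i ξ j := val_fl H hcl hb'
  refine fl_unique H hb fun j => ?_
  set v := fl (H95.act i ξ) (b ∘ sw i) with hvdef
  rcases eq_or_ne j i.castSucc with rfl | h1
  · have e : pX b i.castSucc = pX (b ∘ sw i) i.succ :=
      Prod.ext (piX_succ H.flipR (by norm_num) hb hi).symm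
        (piX_succ H.flipR (by norm_num) hb hi).symm
    rw [e, hv i.succ, H95.act, if_neg hne, if_pos rfl]
  rcases eq_or_ne j i.succ with rfl | h2
  · have e : pX b i.succ = pX b i.castSucc + pX b i.castSucc - pX (b ∘ sw i) i.castSucc := by
      refine Prod.ext ?_ ?_
      · have := piX_cast (k := 0) H.flipL (by norm_num) hb hi
        simp only [pX, Prod.fst_sub, Prod.fst_add]
        linear_combination this
      · have := piX_cast (k := 1) H.flipL (by norm_num) hb hi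
        simp only [pX, Prod.snd_sub, Prod.snd_add]
        linear_combination this
    have e2 : pX b i.castSucc = pX (b ∘ sw i) i.succ :=
      Prod.ext (piX_succ H.flipR (by norm_num) hb hi).symm
        (piX_succ H.flipR (by norm_num) hb hi).symm
    have h3 := hv i.succ
    have h4 := hv i.castSucc
    rw [H95.act, if_neg hne, if_pos rfl] at h3
    rw [H95.act, if_pos rfl] at h4
    rw [e, e2, map_sub, map_add]
    linarith
  · have e : pX b j = pX (b ∘ sw i) j :=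
      Prod.ext (piX_other 0 h1 h2).symm (piX_other 1 h1 h2).symm
    rw [e, hv j, H95.act, if_neg h1, if_neg h2]

end

end Vale.Agent.P273.H580
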