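import Vale.Agent.P273.H580.The
import Vale.Agent.P273.H401.Core2

/-!
# P273: the flat gauge near merged configurations

The primitives are smooth on the charts `Dm S` without any condition on the configuration; so the
flat form is bounded by its coefficients near merged configurations.
-/

namespace Vale.Agent.P273.H580

open scoped ContDiff Topology
open Set Filter
open Vale.Agent.P273.H214 (Bs ff)
open Vale.Agent.P273.H857 (C6 P sq)

noncomputable section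

/-- the potentials -/
abbrev theP (S : Finset (Fin 6)) (p : Bs × ℂ) : ℂ × ℂ := (P 0 S p.1 p.2, P 1 S p.1 p.2)

theorem theP_eq (S : Finset (Fin 6)) : (PQ theStms).P S = theP S := rfl

theorem theS_eq (S : Finset (Fin 6)) (p : Bs × ℂ) : (PQ theStms).s S p = sq S p.1 p.2 := rfl

/-- smoothness at all points of the chart, also at merged configurations -/
theorem P_sm_nat {S : Finset (Fin 6)} {p : Bs × ℂ} (hp : p ∈ H580.Dm S) :
    ContDiffAt ℝ ∞ (theP S) p := by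
  have h0 := (H857.stmHOLn 0 S p.1 p.2 (by norm_num) (ne_of_Dm hp) (ok_of_Dm hp)).1
  have h1 := (H857.stmHOLn 1 S p.1 p.2 (by norm_num) (ne_of_Dm hp) (ok_of_Dm hp)).1
  exact (h0.contDiffAt.restrict_scalars ℝ).prodMk (h1.contDiffAt.restrict_scalars ℝ)

theorem P_x_nat {S : Finset (Fin 6)} {p : Bs × ℂ} (hp : p ∈ H580.Dm S) :
    HasDerivAt (fun x : ℂ => theP S (p.1, x))
      ((1 / sq S p.1 p.2, p.2 / sq S p.1 p.2) : ℂ × ℂ) p.2 := by
  have h0 := (H857.stmHOLn 0 S p.1 p.2 (by norm_num) (ne_of_Dm hp) (ok_of_Dm hp)).2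
  have h1 := (H857.stmHOLn 1 S p.1 p.2 (by norm_num) (ne_of_Dm hp) (ok_of_Dm hp)).2
  rw [pow_zero] at h0
  rw [pow_one] at h1
  exact h0.prodMk h1

section
variable {A : Bs → (ℂ × ℂ →L[ℝ] ℝ)} {c : Bs → ℝ}

/-- the differential of the potential of a class -/
theorem fderiv_Gf {S : Finset (Fin 6)} {p : Bs × ℂ} (hp : p ∈ H580.Dm S)
    (hA : DifferentiableAt ℝ A p.1) (hc : DifferentiableAt ℝ c p.1) (w : Bs × ℂ) :
    fderiv ℝ (Gf (PQ theStms) A c S) p w =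
      A p.1 (fderiv ℝ (theP S) p w) + fderiv ℝ A p.1 w.1 (theP S p) + fderiv ℝ c p.1 w.1 := by
  have hP : DifferentiableAt ℝ (theP S) p := (P_sm_nat hp).differentiableAt (by simp)
  have h1 : HasFDerivAt (fun q : Bs × ℂ => A q.1)
      ((fderiv ℝ A p.1).comp (ContinuousLinearMap.fst ℝ Bs ℂ)) p :=
    hA.hasFDerivAt.comp p hasFDerivAt_fst
  have h2 : HasFDerivAt (fun q : Bs × ℂ => c q.1)
      ((fderiv ℝ c p.1).comp (ContinuousLinearMap.fst ℝ Bs ℂ)) p :=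
    hc.hasFDerivAt.comp p hasFDerivAt_fst
  have h3 := ((h1.clm_apply hP.hasFDerivAt).add h2).fderiv
  have h4 : Gf (PQ theStms) A c S = fun q => A q.1 (theP S q) + c q.1 := rfl
  rw [h4]
  have h5 : (fun q : Bs × ℂ => A q.1 (theP S q) + c q.1) =
      (fun q : Bs × ℂ => A q.1 (theP S q)) + fun q => c q.1 := rfl
  rw [h5, h3]
  simp

end

/-- the form of the class `ξ` on the chart `S` -/
theorem etaX_eq {ξ : Fin 6 → ℝ} (hξ : H95.IsCl ξ) {b : Bs} {x : ℂ} (hb : b ∈ H681.XX)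
    {S : Finset (Fin 6)} (hS : (b, x) ∈ H580.Dm S) (y : ℂ) :
    theFlatFam.η ξ b x y = (y / sq S b x).re •
      fderiv ℝ (fun q : Bs × ℂ => AX ξ q.1 (theP S q) + cX ξ q.1) (b, x) :=
  (flatX theStms (isCl_alt hξ)).eta_eq hb hS y

theorem re_sq_one {y s f : ℂ} (hy : y ^ 2 = f) (hs : s ^ 2 = f) (h0 : y ≠ 0) :
    |(y / s).re| = 1 := by
  have h1 : (y / s) ^ 2 = 1 := by
    rw [div_pow, hy, hs, div_self]
    rw [← hy]
    exact pow_ne_zero 2 h0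
  rcases sq_one h1 with h | h
  · rw [h]
    simp
  · rw [h]
    simp

/-- the flat form is bounded by the coefficients and their derivatives -/
theorem eta_le {ξ : Fin 6 → ℝ} (hξ : H95.IsCl ξ) {b : Bs} {x : ℂ} (hb : b ∈ H681.XX)
    {S : Finset (Fin 6)} (hS : (b, x) ∈ H580.Dm S) {y : ℂ} (hy : y ^ 2 = ff (b, x))
    (hy0 : y ≠ 0) {M : ℝ} (hM0 : 1 ≤ M) (hM : ‖theP S (b, x)‖ ≤ M)
    (hM' : ‖fderiv ℝ (theP S) (b, x)‖ ≤ M) (w : Bs × ℂ) :
    |theFlatFam.η ξ b x y w| ≤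
      M * (‖AX ξ b‖ * ‖w‖ + ‖fderiv ℝ (AX ξ) b w.1‖ + |fderiv ℝ (cX ξ) b w.1|) := by
  have hfl := flatX theStms (isCl_alt hξ)
  have hdA : DifferentiableAt ℝ (AX ξ) b := (hfl.smA b hb).differentiableAt (by simp)
  have hdc : DifferentiableAt ℝ (cX ξ) b := (hfl.smc b hb).differentiableAt (by simp)
  have hs : (sq S b x) ^ 2 = ff (b, x) := (PQ theStms).s_sq S (b, x) hS
  have e1 : theFlatFam.η ξ b x y = (y / sq S b x).re •
      fderiv ℝ (Gf (PQ theStms) (AX ξ) (cX ξ) S) (b, x) := hfl.eta_eq hb hS y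
  rw [e1, smul_apply, smul_eq_mul, abs_mul, re_sq_one hy hs hy0, one_mul,
    fderiv_Gf hS hdA hdc]
  have b1 : |AX ξ b (fderiv ℝ (theP S) (b, x) w)| ≤ M * (‖AX ξ b‖ * ‖w‖) := by
    have h1 := (AX ξ b).le_opNorm (fderiv ℝ (theP S) (b, x) w)
    have h2 := (fderiv ℝ (theP S) (b, x)).le_opNorm w
    rw [Real.norm_eq_abs] at h1
    calc |AX ξ b (fderiv ℝ (theP S) (b, x) w)|
        ≤ ‖AX ξ b‖ * (‖fderiv ℝ (theP S) (b, x)‖ * ‖w‖) :=
          h1.trans (mul_le_mul_of_nonneg_left h2 (norm_nonneg _))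
      _ ≤ ‖AX ξ b‖ * (M * ‖w‖) := by gcongr
      _ = M * (‖AX ξ b‖ * ‖w‖) := by ring
  have b2 : |fderiv ℝ (AX ξ) b w.1 (theP S (b, x))| ≤ M * ‖fderiv ℝ (AX ξ) b w.1‖ := by
    have h1 := (fderiv ℝ (AX ξ) b w.1).le_opNorm (theP S (b, x))
    rw [Real.norm_eq_abs] at h1
    calc |fderiv ℝ (AX ξ) b w.1 (theP S (b, x))|
        ≤ ‖fderiv ℝ (AX ξ) b w.1‖ * ‖theP S (b, x)‖ := h1
      _ ≤ ‖fderiv ℝ (AX ξ) b w.1‖ * M := by gcongr
      _ = M * ‖fderiv ℝ (AX ξ) b w.1‖ := by ring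
  have b3 : |fderiv ℝ (cX ξ) b w.1| ≤ M * |fderiv ℝ (cX ξ) b w.1| :=
    le_mul_of_one_le_left (abs_nonneg _) hM0
  calc |AX ξ b (fderiv ℝ (theP S) (b, x) w) + fderiv ℝ (AX ξ) b w.1 (theP S (b, x)) +
        fderiv ℝ (cX ξ) b w.1|
      ≤ |AX ξ b (fderiv ℝ (theP S) (b, x) w)| + |fderiv ℝ (AX ξ) b w.1 (theP S (b, x))| +
        |fderiv ℝ (cX ξ) b w.1| := abs_add_three _ _ _
    _ ≤ M * (‖AX ξ b‖ * ‖w‖) + M * ‖fderiv ℝ (AX ξ) b w.1‖ + M * |fderiv ℝ (cX ξ) b w.1| :=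
      add_le_add (add_le_add b1 b2) b3
    _ = _ := by ring

/-- locally uniform bound, at every configuration (merged or not) and every point off the roots -/
theorem eta_local {q₁ : Bs} {x₁ : ℂ} {S : Finset (Fin 6)} (hS : (q₁, x₁) ∈ H580.Dm S) :
    ∃ C, ∀ᶠ p : Bs × ℂ in 𝓝 (q₁, x₁), p ∈ H580.Dm S ∧
      H401.Core.LB theFlatFam.η AX cX C p := by
  have hc0 : ContinuousAt (fun p => ‖theP S p‖) (q₁, x₁) := (P_sm_nat hS).continuousAt.norm
  have hc1 : ContinuousAt (fun p => ‖fderiv ℝ (theP S) p‖) (q₁, x₁) :=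
    ((P_sm_nat hS).fderiv_right (m := 0) (by simp)).continuousAt.norm
  set M : ℝ := max 1 (max (‖theP S (q₁, x₁)‖ + 1) (‖fderiv ℝ (theP S) (q₁, x₁)‖ + 1)) with hM
  refine ⟨M, ?_⟩
  have e0 : ∀ᶠ p : Bs × ℂ in 𝓝 (q₁, x₁), ‖theP S p‖ < ‖theP S (q₁, x₁)‖ + 1 :=
    hc0.eventually (gt_mem_nhds (lt_add_one _))
  have e1 : ∀ᶠ p : Bs × ℂ in 𝓝 (q₁, x₁),
      ‖fderiv ℝ (theP S) p‖ < ‖fderiv ℝ (theP S) (q₁, x₁)‖ + 1 :=
    hc1.eventually (gt_mem_nhds (lt_add_one _))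
  filter_upwards [e0, e1, (isOpen_Dm S).mem_nhds hS] with p h0 h1 h2
  refine ⟨h2, fun hp ξ hξ y hy hy0 w => ?_⟩
  exact eta_le hξ hp h2 hy hy0 (le_max_left _ _)
    (h0.le.trans ((le_max_left _ _).trans (le_max_right _ _)))
    (h1.le.trans ((le_max_right _ _).trans (le_max_right _ _))) w

/-- **the flat form is bounded near merged configurations** -/
theorem flatL : H401.Core.FlatL theFlatFam.η theFlatFam.A cX := by
  intro k q₁ _ x₁ hx
  have hff : ff (q₁, x₁) ≠ 0 := by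
    rw [H214.ff_ne_zero_iff]
    exact fun l h => hx l (by simpa using h)
  obtain ⟨C, hC⟩ := eta_local (mem_Dm_Sx (p := (q₁, x₁)) hff)
  exact ⟨C, hC.mono fun p h => h.2⟩

end

end Vale.Agent.P273.H580
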